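import Vale.Agent.P113.Main

namespace Vale.Agent.Results.P113.Halting

open Vale.Agent.P113
open scoped ContDiff

theorem result (ν : ℝ) (hν : 0 < ν) (hc : ComputableReal ν) :
    ∃ (a : V) (O : Set (Fin 3 → AddCircle (1 : ℝ)))
      (C : (ℕ × ℕ × ℕ × List Bool × List (List (ℕ × ℕ × Bool))) × List ℕ → Nat.Partrec.Code)
      (f : (M : TM) → List (Fin (M.nS + 1)) → ℝ → V → V) (T₀ τ : ℝ),
      IsOpen O ∧ Computable C ∧ 0 ≤ T₀ ∧ 0 < τ ∧
      (∀ M w, ContDiff ℝ ∞ (fun z : ℝ × V => f M w z.1 z.2) ∧ (∀ t, Periodic3 (f M w t)) ∧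
        Computes (C (M.code, w.map Fin.val)) (f M w)) ∧
      (∀ M w t, T₀ ≤ t → f M w (t + τ) = f M w t) ∧
      (∀ M w w' t, T₀ ≤ t → f M w t = f M w' t) ∧
      ∀ M w, ∃ (u : ℝ → V → V) (p : ℝ → V → ℝ),
        ContDiff ℝ ∞ (fun z : ℝ × V => u z.1 z.2) ∧ ContDiff ℝ ∞ (fun z : ℝ × V => p z.1 z.2) ∧
        (∀ T, 0 < T → IsClassical ν (f M w) T u p) ∧
        (∀ T, 0 < T → ∀ v q, IsClassical ν (f M w) T v q →
          ∀ t ∈ Set.Icc 0 T, v t = u t ∧ q t = p t) ∧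
        (∃ X, IsTrajectory u a X) ∧
        ∀ X, IsTrajectory u a X → ((∃ t, 0 ≤ t ∧ toTorus (X t) ∈ O) ↔ M.Halts w) := by
  obtain ⟨C, hC, hCf⟩ := compiler hc
  refine ⟨vec 0 0 0, target, C, fun M w => force ν M.code (w.map Fin.val), 1, 1, target_open,
    hC, zero_le_one, one_pos, fun M w => ⟨force_contDiff ν M _, force_space ν _ _, hCf M _⟩,
    fun M w t ht => force_time ν _ _ ht, fun M w w' t ht => force_indep ν _ _ _ ht,
    fun M w => ⟨velo M.code (w.map Fin.val), fun _ _ => 0, velo_contDiff M _, contDiff_const,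
      fun T _ => velo_classical ν M _ T,
      fun T hT v q hv => classical_unique hν.le hT (velo_classical ν M _ T) hv,
      traj_exists (gs_indep M.code _) (velo_slot M.code _) _, fun X hX => detect M w X hX⟩⟩

end Vale.Agent.Results.P113.Halting
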